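import Vale.Agent.P286E5.Hg
import Vale.Agent.P286EL.Bb
import Vale.Agent.P286E75.Pi

/-!
# Right actions on modules with ghosts
-/

set_option linter.all false

namespace Vale.Agent.P286EX.Ra

open Matrix Vale.Agent.P286E Vale.Agent.P286EI Vale.Agent.P286EI.L3 Vale.Agent.P286EX.Gl
  Vale.Agent.P286EL

noncomputable section

variable {A A' M M' N N' : Type} [CommRing A] [Algebra ℂ A] [CommRing A'] [Algebra ℂ A']
  [AddCommGroup N] [Module ℂ N] [Module A N] [IsScalarTower ℂ A N]
  [AddCommGroup N'] [Module ℂ N'] [Module A' N'] [IsScalarTower ℂ A' N']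

theorem CE_L {κ : ℂ} {l : Fin 3 → N →ₗ[A] N} (c : CE κ l) (a : Fin 3) (x : L3 N) :
    c.L a x = L3.map (l a) x + κ • ad ℂ N a x := by
  induction x using vind A N with
  | h0 z =>
    rw [c.L_inl, map_inl]
    exact (add_zero _).symm.trans (congrArg _ ((smul_zero κ).symm.trans
      (congrArg _ (P286E75.ad_inl a z).symm)))
  | add x y hx hy => simp only [map_add, hx, hy, smul_add]; abel
  | h1 b x hx =>
    have e : ad ℂ N a (wg A N b x) = wg A N b (ad ℂ N a x) + ∑ c, eps a b c • wg A N c x :=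
      P286E75.ad_wg a b x
    rw [c.L_wg, hx, map_wg, e, map_add, LinearMap.map_smul_of_tower, smul_add, Finset.smul_sum,
      add_assoc]
    simp only [smul_smul]

section Lin

variable [AddCommGroup M] [Module ℂ M] [AddCommGroup M'] [Module ℂ M']
  (ρ : M →ₗ[ℂ] N →ₗ[A] N) (ρ' : M' →ₗ[ℂ] N' →ₗ[A'] N')

/-- The action on a fixed vector. -/
def fl (z : N) : M →ₗ[ℂ] N where
  toFun y := ρ y z
  map_add' x y := LinearMap.congr_fun (map_add ρ x y) z
  map_smul' c x := LinearMap.congr_fun (map_smul ρ c x) z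

theorem fl_apply (z : N) (y : M) : fl ρ z y = ρ y z := rfl

/-- The action on the vacuum. -/
def vac (x : L3 M) : N →ₗ[A] L3 N :=
  mkL (ρ x.s) (fun a => ρ (x.v a)) (fun a => ρ (x.w a)) (ρ x.t)

theorem vac_apply (x : L3 M) (z : N) : vac ρ x z = L3.map (fl ρ z) x := rfl

/-- The right action. -/
def rb : L3 M →ₗ[ℂ] L3 N →ₗ[A] L3 N where
  toFun x := lift (wg A N) (vac ρ x)
  map_add' x y := LinearMap.ext fun p => by
    simp only [lift_apply, vac_apply, map_add, LinearMap.add_apply]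
    abel
  map_smul' c x := LinearMap.ext fun p => by
    simp only [lift_apply, vac_apply, map_smul, LinearMap.map_smul_of_tower, LinearMap.smul_apply,
      smul_add, RingHom.id_apply]

theorem rb_inl (x : L3 M) (z : N) : rb ρ x (L3.inl A N z) = L3.map (fl ρ z) x :=
  lift_inl _ (vac ρ x) z

theorem rb_wg (x : L3 M) (a : Fin 3) (p : L3 N) : rb ρ x (wg A N a p) = wg A N a (rb ρ x p) :=
  lift_wg _ (vac ρ x) wg_wg wg_sq a p

attribute [irreducible] rb

theorem rb_inl' (y : M) (p : L3 N) : rb ρ (L3.inl ℂ M y) p = L3.map (ρ y) p := by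
  induction p using vind A N with
  | h0 z => rw [rb_inl, map_inl, map_inl]; rfl
  | h1 a p hp => rw [rb_wg, hp, map_wg]
  | add p q hp hq => simp only [map_add, hp, hq]

theorem rb_nat (t : N →ₗ[ℂ] N') (g : M →ₗ[ℂ] M') (h : ∀ y z, t (ρ y z) = ρ' (g y) (t z))
    (x : L3 M) (p : L3 N) : L3.map t (rb ρ x p) = rb ρ' (L3.map g x) (L3.map t p) := by
  induction p using vind A N with
  | h0 z =>
    rw [rb_inl]
    refine Eq.trans ?_ ((congrArg _ (map_inl t z)).trans (rb_inl ρ' _ (t z))).symm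
    exact L3.ext (h _ z) (funext fun a => h _ z) (funext fun a => h _ z) (h _ z)
  | h1 a p hp =>
    rw [rb_wg]
    exact (map_wg t a _).trans ((congrArg _ hp).trans
      ((congrArg _ (map_wg t a p)).trans (rb_wg ρ' _ a _)).symm)
  | add p q hp hq => simp only [map_add, hp, hq]

theorem rb_gr {m n : ℤ} {p : L3 N} {x : L3 M} (hp : p ∈ L3.gr ℂ N m) (hx : x ∈ L3.gr ℂ M n) :
    rb ρ x p ∈ L3.gr ℂ N (m + n) :=
  mem_ind (A := A) (Q := fun m p => rb ρ x p ∈ L3.gr ℂ N (m + n))
    (fun z => by rw [rb_inl, zero_add]; exact map_mem _ hx)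
    (fun a m p hp => by rw [rb_wg, sub_add_eq_add_sub]; exact wg_mem (R := ℂ) a hp)
    (fun m p q hp hq => by rw [map_add]; exact add_mem hp hq)
    (fun m => by rw [map_zero]; exact zero_mem _) (mem_gr.2 (mem_gr.1 hp))

variable {κ : ℂ} {l : Fin 3 → N →ₗ[A] N} (c : CE κ l) {l' : Fin 3 → M →ₗ[ℂ] M} (c' : CE κ l')

theorem map_L (φ : M →ₗ[ℂ] N) (h : ∀ a y, φ (l' a y) = l a (φ y)) (a : Fin 3) (x : L3 M) :
    c.L a (L3.map φ x) = L3.map φ (L3.map (l' a) x + κ • ad ℂ M a x) := by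
  rw [CE_L, map_add, map_smul, map_ad]
  exact congrArg (· + _) (L3.ext (h a _).symm (funext fun _ => (h a _).symm)
    (funext fun _ => (h a _).symm) (h a _).symm)

theorem map_d (φ : M →ₗ[ℂ] N) (h : ∀ a y, φ (l' a y) = l a (φ y)) (x : L3 M) :
    c.d (L3.map φ x) = L3.map φ (c'.d x) := by
  induction x using vind ℂ M with
  | h0 z => rw [c'.d_inl, map_inl, map_zero]; exact c.d_inl _
  | h1 a x hx =>
    rw [c'.d_wg, map_sub, map_wg, map_wg, ← hx, CE_L c', ← map_L c φ h]
    exact c.d_wg a _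
  | add x y hx hy => simp only [map_add, hx, hy]

end Lin

section Alg

variable [Ring M] [Algebra ℂ M] (ρ : M →ₗ[ℂ] N →ₗ[A] N)
  (hm : ∀ a b p, ρ (a * b) p = ρ b (ρ a p))

theorem rb_one (h1 : ∀ p, ρ 1 p = p) (p : L3 N) : rb ρ (L3.inl ℂ M 1) p = p :=
  (rb_inl' ρ 1 p).trans (L3.ext (h1 _) (funext fun _ => h1 _) (funext fun _ => h1 _) (h1 _))

/-- A product on the ghost module. -/
structure Pr (M : Type) [Ring M] [Algebra ℂ M] where
  mul : L3 M → L3 M → L3 M
  add : ∀ x x' y, mul (x + x') y = mul x y + mul x' y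
  gh : ∀ a x y, mul (wg ℂ M a x) y = wg ℂ M a (mul x y)
  vac : ∀ m y, mul (L3.inl ℂ M m) y = L3.map (LinearMap.mulLeft ℂ m) y

include hm

theorem rb_mul (π : Pr M) (x y : L3 M) (p : L3 N) :
    rb ρ (π.mul x y) p = rb ρ y (rb ρ x p) := by
  induction p using vind A N with
  | h1 a p hp => simp only [rb_wg, hp]
  | add p q hp hq => simp only [map_add, hp, hq]
  | h0 z =>
    rw [rb_inl, rb_inl]
    induction x using vind ℂ M with
    | h0 m =>
      rw [π.vac]
      refine Eq.trans ?_ ((congrArg _ (map_inl (fl ρ z) m)).trans (rb_inl ρ y _)).symm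
      exact L3.ext (hm _ _ z) (funext fun a => hm _ _ z) (funext fun a => hm _ _ z) (hm _ _ z)
    | h1 a x hx =>
      rw [π.gh, map_wg, map_wg, hx]
      exact (rb_wg ρ y a _).symm
    | add x x' hx hx' => simp only [π.add, map_add, hx, hx']

variable {κ : ℂ} {l : Fin 3 → N →ₗ[A] N} (c : CE κ l) {μ : Fin 3 → M}
  (hl : ∀ a z, l a z = ρ (-μ a) z) {x : L3 M}
  (hx : ∀ a, L3.map (adj (μ a)) x + κ • ad ℂ M a x = 0)

include hl

theorem fl_l (z : N) (a : Fin 3) (y : M) :
    fl ρ z (LinearMap.mulRight ℂ (-μ a) y) = l a (fl ρ z y) := (hm _ _ z).trans (hl a _).symm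

include hx

theorem rb_L (a : Fin 3) (p : L3 N) : rb ρ x (c.L a p) = c.L a (rb ρ x p) := by
  induction p using vind A N with
  | add p q hp hq => simp only [map_add, hp, hq]
  | h1 b p hp =>
    simp only [c.L_wg, rb_wg, map_add, map_sum, LinearMap.map_smul_of_tower, hp]
  | h0 z =>
    have e : L3.map (LinearMap.mulRight ℂ (-μ a)) x =
        L3.map (LinearMap.mulLeft ℂ (-μ a)) x + L3.map (adj (μ a)) x := by
      have h : ∀ y, y * -μ a = -μ a * y + adj (μ a) y := fun y => by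
        rw [adj_apply]; noncomm_ring
      exact L3.ext (h _) (funext fun _ => h _) (funext fun _ => h _) (h _)
    rw [c.L_inl, rb_inl, rb_inl, map_L c (fl ρ z) (fl_l ρ hm hl z), e, add_assoc, hx, add_zero, hl]
    exact L3.ext (hm _ _ z).symm (funext fun _ => (hm _ _ z).symm)
      (funext fun _ => (hm _ _ z).symm) (hm _ _ z).symm

theorem rb_d (c' : CE κ fun a => LinearMap.mulRight ℂ (-μ a)) (p : L3 N) :
    c.d (rb ρ x p) = rb ρ x (c.d p) + rb ρ (c'.d x) (sg A N p) := by
  induction p using vind A N with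
  | add p q hp hq => simp only [map_add, hp, hq]; abel
  | h1 b p hp =>
    simp only [c.d_wg, rb_wg, sg_wg, map_sub, map_neg, map_add, hp, rb_L ρ hm c hl hx]
    abel
  | h0 z =>
    have e : sg A N (L3.inl A N z) = L3.inl A N z := L3.ext rfl neg_zero rfl neg_zero
    rw [c.d_inl, map_zero, zero_add, e, rb_inl, rb_inl]
    exact map_d c c' (fl ρ z) (fl_l ρ hm hl z) x

end Alg

section Row

variable {n : ℕ} [AddCommGroup M] [Module ℂ M] (ρ : M →ₗ[ℂ] N →ₗ[A] N)

/-- The action of matrices on rows. -/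
def row : Matrix (Fin n) (Fin n) M →ₗ[ℂ] (Fin n → N) →ₗ[A] (Fin n → N) where
  toFun z := LinearMap.pi fun m => ∑ k, ρ (z k m) ∘ₗ LinearMap.proj k
  map_add' x y := LinearMap.ext fun p => funext fun m => by
    simp [Finset.sum_add_distrib]
  map_smul' c x := LinearMap.ext fun p => funext fun m => by
    simp [Finset.smul_sum]

theorem row_apply (z : Matrix (Fin n) (Fin n) M) (p : Fin n → N) (m : Fin n) :
    row ρ z p m = ∑ k, ρ (z k m) (p k) := LinearMap.sum_apply _ _ _

theorem row_single (z : Matrix (Fin n) (Fin n) M) (k m : Fin n) (x : N) :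
    row ρ z (Pi.single k x) m = ρ (z k m) x := by
  rw [row_apply, Finset.sum_eq_single k (fun j _ h => by rw [Pi.single_eq_of_ne h, map_zero])
    fun h => absurd (Finset.mem_univ k) h, Pi.single_eq_same]

theorem row_diag (y : M) (p : Fin n → N) (m : Fin n) :
    row ρ (Matrix.diagonal fun _ => y) p m = ρ y (p m) := by
  rw [row_apply, Finset.sum_eq_single m
    (fun j _ h => by rw [Matrix.diagonal_apply_ne _ h, map_zero, LinearMap.zero_apply])
    fun h => absurd (Finset.mem_univ m) h, Matrix.diagonal_apply_eq]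

end Row

section RowA

variable {n : ℕ} [Ring M] [Algebra ℂ M] (ρ : M →ₗ[ℂ] N →ₗ[A] N)

theorem row_one (h1 : ∀ p, ρ 1 p = p) (p : Fin n → N) : row ρ 1 p = p :=
  funext fun m => (row_diag ρ 1 p m).trans (h1 _)

theorem row_mul (hm : ∀ a b p, ρ (a * b) p = ρ b (ρ a p)) (a b : Matrix (Fin n) (Fin n) M)
    (p : Fin n → N) : row ρ (a * b) p = row ρ b (row ρ a p) := funext fun m => by
  simp only [row_apply, Matrix.mul_apply, map_sum, LinearMap.sum_apply, hm]
  exact Finset.sum_comm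

theorem row_MU (h1 : ∀ p, ρ 1 p = p) (μ : Fin 3 → M) (r : Fin 3 → Matrix (Fin n) (Fin n) ℂ)
    (a : Fin 3) (p : Fin n → N) (k : Fin n) :
    row ρ (-MU μ r a) p k = -ρ (μ a) (p k) + ∑ m, r a k m • p m := by
  rw [map_neg, MU, map_add, LinearMap.neg_apply, LinearMap.add_apply, Pi.neg_apply, Pi.add_apply,
    neg_add, Matrix.scalar_apply, row_diag, row_apply, ← Finset.sum_neg_distrib]
  refine congrArg _ (Finset.sum_congr rfl fun m _ => ?_)
  rw [Matrix.map_apply, Algebra.algebraMap_eq_smul_one, map_smul, LinearMap.smul_apply, h1,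
    Matrix.neg_apply, neg_smul, neg_neg, transpose_apply]

end RowA

end

end Vale.Agent.P286EX.Ra
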