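import Vale.Agent.P286EX.Spec
import Vale.Agent.P286EC.Gen

/-!
# Operators which commute with the Lie algebra commute with the gauge transformations
-/

set_option linter.all false

namespace Vale.Agent.P286EX.Gt

open CategoryTheory Matrix TensorProduct Vale.Agent.P286 Vale.Agent.P286.St Vale.Agent.P286E
  Vale.Agent.P286EC

noncomputable section

variable {I : Type} [SmallCategory I] {D : CD I} {G : Grp} {s : ℂ} (K : GK G)

theorem const_R {A : Type} [CommRing A] [Algebra ℂ A] (x : A ⊗[ℂ] K.O.R)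
    (h : ∀ a, lT A (K.R a) x = 0) : ∃ y, x = cL K A y := by
  classical
  let b := Module.Basis.ofVectorSpace ℂ A
  let e := TensorProduct.equivFinsuppOfBasisLeft (N := K.O.R) b
  have h1 : ∀ (u : K.O.R →ₗ[ℂ] K.O.R) (x : A ⊗[ℂ] K.O.R) i, e (u.lTensor A x) i = u (e x i) := by
    intro u x i
    induction x using TensorProduct.induction_on with
    | zero => simp
    | tmul g m =>
      rw [LinearMap.lTensor_tmul, equivFinsuppOfBasisLeft_apply_tmul_apply,
        equivFinsuppOfBasisLeft_apply_tmul_apply, map_smul]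
    | add x y hx hy => simp only [map_add, Finsupp.add_apply, hx, hy]
  let l : K.O.R →ₐ[ℂ] ℂ := K.ev (1 : Matrix _ _ ℂ) (Grp.Pt.one G)
  have h2 : ∀ x : A ⊗[ℂ] K.O.R, cL K A (TensorProduct.rid ℂ A (l.toLinearMap.lTensor A x)) =
      (Algebra.linearMap ℂ K.O.R ∘ₗ l.toLinearMap).lTensor A x := by
    intro x
    induction x using TensorProduct.induction_on with
    | zero => simp
    | tmul g m =>
      rw [LinearMap.lTensor_tmul, LinearMap.lTensor_tmul, rid_tmul, LinearMap.comp_apply,
        Algebra.linearMap_apply, Algebra.algebraMap_eq_smul_one, tmul_smul, map_smul]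
      rfl
    | add x y hx hy => simp only [map_add, hx, hy]
  refine ⟨_, (e.injective (Finsupp.ext fun i => ?_)).trans (h2 x).symm⟩
  rw [h1]
  obtain ⟨c, hc⟩ := K.const_R (e x i) fun a => by
    have := h1 (K.R a).toLinearMap x i
    rw [← lT_apply, h a, map_zero] at this
    exact this.symm
  rw [hc]
  simp

/-- The universal gauge transform of a point. -/
abbrev gob (X : QO D) : QO D :=
  ⟨X.i, (cop K X).A, (cop K X).x, adm G (cg K X) *ᵥ (cop K X).Y,
    (K.adm_dot (cg_pt K X) _ _).trans (cop K X).sq⟩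

/-- The universal gauge transformation. -/
def nu (s : ℂ) (X : QO D) : Ar G s X (gob K X) :=
  (⟨𝟙 X.i, cL K X.A.R, cg K X, cg_pt K X, fun z => by rw [D.κ_id]; rfl, by
    rw [D.c_id, map_one, one_smul]; exact K.mul_ht (cg_pt K X) _⟩ : QM G X (gob K X))

/-- The arrow without gauge transformation through which `u` factors. -/
def fac {X Y : QO D} (u : Ar G s X Y) : Ar G s (gob K X) Y :=
  (⟨(QM.α (X := X) u :), dscR K (QM.φ u) (QM.h u) (QM.pt u), 1, Grp.Pt.one G,
    fun z => (dscR_L K _ _ _ _).trans (QM.hx u z), by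
      have h : (dscR K (QM.φ u) (QM.h u) (QM.pt u)) ∘ (gob K X).Y =
          adm G (QM.h u) *ᵥ (QM.φ u ∘ X.Y) := funext fun a => by
        have e := (adm_map (dscR K (QM.φ u) (QM.h u) (QM.pt u)) (cg K X)).trans
          (congrArg (adm G) (dscR_g K _ _ _))
        rw [← e]
        simp only [Function.comp_apply, mulVec, dotProduct, map_sum, map_mul, map_apply]
        exact Finset.sum_congr rfl fun b _ => congrArg _ (dscR_L K _ _ _ _)
      refine (congrArg (fun Y => 1 * G.ht Y) h).trans ?_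
      rw [Matrix.one_mul, Matrix.mul_one, K.ht_adm (QM.pt u), QM.hY u, Matrix.smul_mul,
        Matrix.mul_assoc, pt_mul_adj (QM.pt u), Matrix.mul_one]⟩ : QM G (gob K X) Y)

theorem nu_α (X : QO D) : QM.α (nu K s X) = 𝟙 X.i := rfl

theorem nu_h (X : QO D) : QM.h (nu K s X) = cg K X := rfl

theorem fac_α {X Y : QO D} (u : Ar G s X Y) : QM.α (fac K u) = QM.α u := rfl

theorem fac_h {X Y : QO D} (u : Ar G s X Y) : QM.h (fac K u) = 1 := rfl

theorem nu_fac {X Y : QO D} (u : Ar G s X Y) : nu K s X ≫ fac K u = u :=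
  ar_ext (Category.id_comp _) (AlgHom.ext fun a => dscR_L K _ _ (QM.pt u) a)
    ((Matrix.one_mul _).trans (dscR_g K _ _ (QM.pt u)))

/-- The right invariant vector fields. -/
def wR (s : ℂ) (X : QO D) (c : Fin 3) :
    Derivation ℂ (RQ G s (gob K X)) (RQ G s (gob K X)) := lT X.A.R (K.R c)

variable {K} (P : HG (K.gs D s))

/-- The operator which kills the image of the universal gauge transformation. -/
def Dc (X : QO D) (c : Fin 3) (q : (P.K (gob K X)).M.V) : (P.K (gob K X)).M.V :=
  (P.K (gob K X)).C.act (wR K s X c) q - lieOp (P.K (gob K X)) (P.i (gob K X) c) q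

theorem Dc_t (X : QO D) (c : Fin 3) (p : (P.K X).M.V) : Dc P X c ((P.t (nu K s X)).f p) = 0 := by
  have h := P.t_act (nu K s X) (wR K s X c) 0 Fin.elim0 Fin.elim0
    (fun a => (lT_tmul (K.R c) a 1).trans (by rw [Derivation.map_one_eq_zero, tmul_zero]; rfl)) p
  have h1 : (QS D G s).dl (nu K s X) = 1 := (congrArg (gob K X).x (D.r_id X.i)).trans (map_one _)
  have h2 : ∀ a, (wR K s X c).liftKaehlerDifferential ((K.gs D s).th (nu K s X) a) =
      if a = c then 1 else 0 := fun a =>
    K.thm_of (cg_pt K X) (wR K s X c) (fun a => if a = c then 1 else 0) (by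
      refine (GK.lT_g (K.R c) K.g).trans ?_
      rw [K.R_g, map_mul', bt_map, ht_eq]
      simp
      rfl) a
  rw [Dc, h, h1, Derivation.map_one_eq_zero, mul_zero, zero_smul, sub_zero]
  simp [h2]

theorem Dc_smul (X : QO D) (c : Fin 3) (b : RQ G s (gob K X)) (q : (P.K (gob K X)).M.V) :
    Dc P X c (b • q) = wR K s X c b • q + b • Dc P X c q := by
  refine (congrArg₂ (· - ·) ((P.K (gob K X)).C.leibniz (wR K s X c) b q) (map_smul _ b q)).trans ?_
  rw [Dc, smul_sub, add_sub_assoc]

theorem Dc_add (X : QO D) (c : Fin 3) (q q' : (P.K (gob K X)).M.V) :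
    Dc P X c (q + q') = Dc P X c q + Dc P X c q' := by
  rw [Dc, Dc, Dc, act_add', map_add]; abel

theorem Dc_sub (X : QO D) (c : Fin 3) (q q' : (P.K (gob K X)).M.V) :
    Dc P X c (q - q') = Dc P X c q - Dc P X c q' := by
  rw [eq_sub_iff_add_eq, ← Dc_add, sub_add_cancel]

theorem Dc_zero (X : QO D) (c : Fin 3) : Dc P X c 0 = 0 := by
  exact (congrArg₂ (· - ·) ((P.K (gob K X)).C.act_zero _) (map_zero _)).trans (sub_zero _)

/-- The kernel of the operators is the image of the universal gauge transformation. -/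
theorem ker_Dc {ι : Type} (X : QO D) (e : ι → (P.K X).M.V)
    (e' : Module.Basis ι (RQ G s (gob K X)) (P.K (gob K X)).M.V)
    (he : ∀ γ, e' γ = (P.t (nu K s X)).f (e γ)) (q : (P.K (gob K X)).M.V)
    (hq : ∀ c, Dc P X c q = 0) : ∃ p, (P.t (nu K s X)).f p = q := by
  classical
  have h1 : ∀ c (T : Finset ι) (b : ι → RQ G s (gob K X)),
      Dc P X c (∑ γ ∈ T, b γ • e' γ) = ∑ γ ∈ T, wR K s X c (b γ) • e' γ := fun c T b => by
    induction T using Finset.induction_on with
    | empty => rw [Finset.sum_empty, Finset.sum_empty, Dc_zero]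
    | insert γ T hT ih =>
      rw [Finset.sum_insert hT, Finset.sum_insert hT, Dc_add, ih, Dc_smul, he, Dc_t, smul_zero,
        add_zero]
  have h0 : q = ∑ γ ∈ (e'.repr q).support, e'.repr q γ • e' γ :=
    (e'.linearCombination_repr q).symm.trans (Finsupp.linearCombination_apply _ _)
  have h2 : ∀ γ ∈ (e'.repr q).support, ∃ y : RQ G s X,
      e'.repr q γ = (QS D G s).f (nu K s X) y := fun γ hγ =>
    const_R K _ fun c => linearIndependent_iff'.1 e'.linearIndependent _
      (fun γ => wR K s X c (e'.repr q γ)) (by rw [← h1, ← h0, hq]) γ hγ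
  choose! y hy using h2
  refine ⟨∑ γ ∈ (e'.repr q).support, y γ • e γ, ?_⟩
  rw [map_sum]
  refine (Finset.sum_congr rfl fun γ hγ => ?_).trans h0.symm
  rw [hy γ hγ, he]
  exact P.t_smul (nu K s X) _ _

theorem t_fac (X : QO D) (p : (P.K X).M.V) :
    (P.t (fac K (idA G s X))).f ((P.t (nu K s X)).f p) = p := by
  refine (P.t_comp (nu K s X) (fac K (idA G s X)) p).symm.trans ?_
  rw [nu_fac]; exact P.t_id X p

/-- Operators which commute with the connection, with the Lie algebra and with the arrows without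
gauge transformation commute with all arrows. -/
theorem t_comm {ι : Type} {X Y : QO D} (u : Ar G s X Y) (e : ι → (P.K X).M.V)
    (e' : Module.Basis ι (RQ G s (gob K X)) (P.K (gob K X)).M.V)
    (he : ∀ γ, e' γ = (P.t (nu K s X)).f (e γ))
    (r : (P.K X).M.V → (P.K X).M.V) (r' : (P.K (gob K X)).M.V →ₗ[RQ G s (gob K X)]
      (P.K (gob K X)).M.V) (r'' : (P.K Y).M.V → (P.K Y).M.V)
    (ha : ∀ v q, r' ((P.K _).C.act v q) = (P.K _).C.act v (r' q))
    (hl : ∀ c q, r' (lieOp _ (P.i _ c) q) = lieOp _ (P.i _ c) (r' q))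
    (h1 : ∀ q, (P.t (fac K (idA G s X))).f (r' q) = r ((P.t (fac K (idA G s X))).f q))
    (h2 : ∀ q, (P.t (fac K u)).f (r' q) = r'' ((P.t (fac K u)).f q)) (p : (P.K X).M.V) :
    (P.t u).f (r p) = r'' ((P.t u).f p) := by
  have h3 : (P.t (nu K s X)).f (r p) = r' ((P.t (nu K s X)).f p) := by
    obtain ⟨p', hp'⟩ := ker_Dc P X e e' he (r' ((P.t (nu K s X)).f p)) fun c => by
      rw [Dc, ← ha, ← hl, ← map_sub]
      exact (congrArg r' (Dc_t P X c p)).trans (map_zero _)
    have h4 := congrArg (P.t (fac K (idA G s X))).f hp'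
    rw [t_fac, h1, t_fac] at h4
    rw [← hp', h4]
  have h5 : ∀ q, (P.t u).f q = (P.t (fac K u)).f ((P.t (nu K s X)).f q) := fun q =>
    (congrArg (fun w : Ar G s X Y => (P.t w).f q) (nu_fac K u)).symm.trans
      (P.t_comp (nu K s X) (fac K u) q)
  rw [h5, h5, h3, h2]

end

end Vale.Agent.P286EX.Gt
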